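import Vale.Agent.P038.H787.Gap
import Vale.Agent.P038.H139.Basic

/-!
# The comparison of the two min cuts (P038)

For an oriented graph `D` with weights `w ≥ 0` the minimum of the inner problem (`InF`) is at most
the minimum of the outer problem (`OutF`).
-/

namespace Vale.Agent.P038.H787

open Finset Vale.Agent.P038.H139

variable {V : Type*} [Fintype V]

/-- `z` is in the closed out-neighbourhood of `a`. -/
def Rr (D : OGraph V) (a z : V) : Prop := z = a ∨ D.arc a z

noncomputable instance (D : OGraph V) : DecidableRel (Rr D) := Classical.decRel _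

/-- The cut function. -/
noncomputable def hh (D : OGraph V) (w : V → ℝ) (Y : Finset V) : ℝ := W w (cl D Y) - W w Y

theorem mem_cl' {D : OGraph V} {S : Finset V} {z : V} : z ∈ cl D S ↔ ∃ a ∈ S, Rr D a z := by
  rw [mem_cl]
  constructor
  · rintro (h | ⟨y, hy, hyz⟩)
    · exact ⟨z, h, Or.inl rfl⟩
    · exact ⟨y, hy, Or.inr hyz⟩
  · rintro ⟨a, ha, rfl | haz⟩
    · exact Or.inl ha
    · exact Or.inr ⟨a, ha, haz⟩

theorem cl_mono' {D : OGraph V} {S T : Finset V} (h : S ⊆ T) : cl D S ⊆ cl D T := by
  intro z hz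
  rw [mem_cl'] at hz ⊢
  obtain ⟨a, ha, haz⟩ := hz
  exact ⟨a, h ha, haz⟩

theorem subset_cl {D : OGraph V} (S : Finset V) : S ⊆ cl D S :=
  fun z hz => mem_cl.2 (Or.inl hz)

/-- Outer feasible pairs. -/
structure OutF (D : OGraph V) (B C : V → Finset V) : Prop where
  b : ∀ a z, Rr D a z → z ∈ B a
  c : ∀ a z, Rr D a z → z ∈ C a
  o : ∀ a y, y ∈ B a → a ∈ C y → y = a

/-- Inner feasible pairs. -/
structure InF (D : OGraph V) (X Y : V → Finset V) : Prop where
  x : ∀ a, a ∈ X a
  y : ∀ a, a ∈ Y a
  o : ∀ a y, y ∈ cl D (X a) → a ∈ cl D (Y y) → y = a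

/-- The cost of a pair of families. -/
noncomputable def cost (D : OGraph V) (w : V → ℝ) (B C : V → Finset V) : ℝ :=
  ∑ a, w a * hh D w (B a) + ∑ a, w a * hh D w (C a)

theorem InF.toOutF {D : OGraph V} {X Y : V → Finset V} (h : InF D X Y) :
    OutF D (fun a => cl D (X a)) (fun a => cl D (Y a)) :=
  ⟨fun a z haz => mem_cl'.2 ⟨a, h.x a, haz⟩, fun a z haz => mem_cl'.2 ⟨a, h.y a, haz⟩, h.o⟩

variable [DecidableEq V]

theorem cl_union' (D : OGraph V) (S T : Finset V) : cl D (S ∪ T) = cl D S ∪ cl D T := by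
  ext z
  simp only [mem_cl', Finset.mem_union]
  constructor
  · rintro ⟨a, ha | ha, haz⟩
    · exact Or.inl ⟨a, ha, haz⟩
    · exact Or.inr ⟨a, ha, haz⟩
  · rintro (⟨a, ha, haz⟩ | ⟨a, ha, haz⟩)
    · exact ⟨a, Or.inl ha, haz⟩
    · exact ⟨a, Or.inr ha, haz⟩

theorem hh_sub (D : OGraph V) {w : V → ℝ} (hw : ∀ v, 0 ≤ w v) (Y Z : Finset V) :
    hh D w (Y ∪ Z) + hh D w (Y ∩ Z) ≤ hh D w Y + hh D w Z := by
  have h1 : W w (Y ∪ Z) + W w (Y ∩ Z) = W w Y + W w Z := Finset.sum_union_inter
  have h2 : W w (cl D Y ∪ cl D Z) + W w (cl D Y ∩ cl D Z) = W w (cl D Y) + W w (cl D Z) :=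
    Finset.sum_union_inter
  have h3 : W w (cl D (Y ∩ Z)) ≤ W w (cl D Y ∩ cl D Z) :=
    W_mono hw (Finset.subset_inter (cl_mono' Finset.inter_subset_left)
      (cl_mono' Finset.inter_subset_right))
  unfold hh
  rw [cl_union']
  linarith

/-- `dual C a` consists of `a` and of all `y` with `a ∉ C y`. -/
def dual (C : V → Finset V) (a : V) : Finset V := Finset.univ.filter fun y => y = a ∨ a ∉ C y

theorem mem_dual {C : V → Finset V} {a y : V} : y ∈ dual C a ↔ y = a ∨ a ∉ C y := by
  simp [dual]

theorem sum_update (f : Finset V → ℝ) (w : V → ℝ) (B : V → Finset V) (a : V) (Y : Finset V) :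
    ∑ x, w x * f (Function.update B a Y x) = ∑ x, w x * f (B x) + w a * (f Y - f (B a)) := by
  rw [← Finset.add_sum_erase Finset.univ _ (Finset.mem_univ a),
    ← Finset.add_sum_erase Finset.univ (fun x => w x * f (B x)) (Finset.mem_univ a)]
  have h1 : ∑ x ∈ Finset.univ.erase a, w x * f (Function.update B a Y x) =
      ∑ x ∈ Finset.univ.erase a, w x * f (B x) :=
    Finset.sum_congr rfl fun x hx => by rw [Function.update_of_ne (Finset.ne_of_mem_erase hx)]
  rw [h1, Function.update_self]
  ring

theorem OutF.row {D : OGraph V} {w : V → ℝ} (hw : ∀ v, 0 < w v) {B C : V → Finset V}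
    (h : OutF D B C) (hmin : ∀ B' C', OutF D B' C' → cost D w B C ≤ cost D w B' C')
    (a : V) (Y : Finset V) (h1 : B a ⊆ Y) (h2 : Y ⊆ dual C a) : hh D w (B a) ≤ hh D w Y := by
  have h3 := hmin (Function.update B a Y) C ⟨?_, h.c, ?_⟩
  · unfold cost at h3
    rw [sum_update] at h3
    have h4 : 0 ≤ w a * (hh D w Y - hh D w (B a)) := by linarith
    have h5 := nonneg_of_mul_nonneg_right h4 (hw a)
    linarith
  · intro a' z haz
    by_cases ha : a' = a
    · subst ha
      rw [Function.update_self]
      exact h1 (h.b a' z haz)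
    · rw [Function.update_of_ne ha]
      exact h.b a' z haz
  · intro a' y hy hay
    by_cases ha : a' = a
    · subst ha
      rw [Function.update_self] at hy
      rcases mem_dual.1 (h2 hy) with h4 | h4
      · exact h4
      · exact absurd hay h4
    · rw [Function.update_of_ne ha] at hy
      exact h.o a' y hy hay

theorem OutF.col {D : OGraph V} {w : V → ℝ} (hw : ∀ v, 0 < w v) {B C : V → Finset V}
    (h : OutF D B C) (hmin : ∀ B' C', OutF D B' C' → cost D w B C ≤ cost D w B' C')
    (b : V) (S : Finset V) (hS : ∀ a ∈ S, b ∈ dual C a ∧ b ∉ B a) :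
    ∑ a ∈ S, w a ≤ ∑ z ∈ Finset.univ.filter
      (fun z => b ∈ meet (Rr D) (dual C) z ∧ ∃ a ∈ S, Rr D a z), w z := by
  have hw0 : ∀ v, 0 ≤ w v := fun v => (hw v).le
  have h3 := hmin B (Function.update C b (C b ∪ S)) ⟨h.b, ?_, ?_⟩
  · unfold cost at h3
    rw [sum_update (hh D w) w C] at h3
    have h4 : 0 ≤ w b * (hh D w (C b ∪ S) - hh D w (C b)) := by linarith
    have h5 := nonneg_of_mul_nonneg_right h4 (hw b)
    have hdis : Disjoint (C b) S := by
      rw [Finset.disjoint_left]
      intro a ha haS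
      obtain ⟨h6, h7⟩ := hS a haS
      rcases mem_dual.1 h6 with h8 | h8
      · subst h8
        exact h7 (h.b b b (Or.inl rfl))
      · exact h8 ha
    have h6 : W w (C b ∪ S) = W w (C b) + W w S := W_union hdis
    have h7 : W w (cl D (C b ∪ S)) ≤ W w (cl D (C b)) + W w (cl D S \ cl D (C b)) := by
      rw [cl_union', ← Finset.union_sdiff_self_eq_union]
      exact (W_union Finset.disjoint_sdiff).le
    have h8 : W w (cl D S \ cl D (C b)) ≤ W w (Finset.univ.filter
        (fun z => b ∈ meet (Rr D) (dual C) z ∧ ∃ a ∈ S, Rr D a z)) := by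
      refine W_mono hw0 ?_
      intro z hz
      obtain ⟨hz1, hz2⟩ := Finset.mem_sdiff.1 hz
      refine Finset.mem_filter.2 ⟨Finset.mem_univ _, mem_meet.2 fun a ha => ?_, mem_cl'.1 hz1⟩
      rw [mem_dual]
      right
      intro haC
      exact hz2 (mem_cl'.2 ⟨a, haC, ha⟩)
    unfold hh at h5
    unfold W at *
    linarith
  · intro a' z haz
    by_cases ha : a' = b
    · subst ha
      rw [Function.update_self]
      exact Finset.mem_union_left _ (h.c a' z haz)
    · rw [Function.update_of_ne ha]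
      exact h.c a' z haz
  · intro a y hy hay
    by_cases hyb : y = b
    · subst hyb
      rw [Function.update_self] at hay
      rcases Finset.mem_union.1 hay with h4 | h4
      · exact h.o a y hy h4
      · exact absurd hy (hS a h4).2
    · rw [Function.update_of_ne hyb] at hay
      exact h.o a y hy hay

/-- Double counting. -/
theorem dcount (w : V → ℝ) (F G : V → Finset V) (hFG : ∀ x z, z ∈ F x ↔ x ∈ G z) :
    ∑ x, w x * W w (F x) = ∑ z, w z * W w (G z) := by
  have e1 : ∀ S : Finset V, W w S = ∑ z, if z ∈ S then w z else 0 := by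
    intro S
    unfold W
    rw [Finset.sum_ite_mem, Finset.univ_inter]
  simp only [e1, Finset.mul_sum]
  rw [Finset.sum_comm]
  refine Finset.sum_congr rfl fun z _ => Finset.sum_congr rfl fun x _ => ?_
  by_cases h : z ∈ F x
  · rw [if_pos h, if_pos ((hFG x z).1 h)]
    ring
  · rw [if_neg h, if_neg (fun h' => h ((hFG x z).2 h'))]
    ring

theorem W_compl_erase (w : V → ℝ) (S : Finset V) (z : V) (hz : z ∈ S) :
    W w (Finset.univ \ (S.erase z)) = W w Finset.univ - (W w S - w z) := by
  rw [W_sdiff (Finset.subset_univ _)]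
  have h1 := Finset.add_sum_erase S w hz
  unfold W
  linarith

/-- The comparison of the two min cuts. -/
theorem compare {D : OGraph V} {w : V → ℝ} (hw : ∀ v, 0 < w v) {B C : V → Finset V}
    (h : OutF D B C) (hmin : ∀ B' C', OutF D B' C' → cost D w B C ≤ cost D w B' C') :
    ∃ X Y, InF D X Y ∧ cost D w X Y ≤ cost D w B C := by
  have hw0 : ∀ v, 0 ≤ w v := fun v => (hw v).le
  set U := dual C with hU
  have hBU : ∀ a, B a ⊆ U a := by
    intro a y hy
    rw [hU, mem_dual]
    by_cases hay : a ∈ C y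
    · exact Or.inl (h.o a y hy hay)
    · exact Or.inr hay
  have hrev : ∀ a y, D.arc y a → y ∉ U a := by
    intro a y hya hy
    rcases mem_dual.1 hy with h1 | h1
    · subst h1
      exact D.loopless _ hya
    · exact h1 (h.c y a (Or.inr hya))
  have hzM : ∀ z, z ∈ meet (Rr D) U z := fun z =>
    mem_meet.2 fun a ha => hBU a (h.b a z ha)
  have hgap := gap (hh_sub D hw0) hw0 (Rr D) B U hBU
    (fun a Y h1 h2 => h.row hw hmin a Y h1 h2)
    (fun b S hS => h.col hw hmin b S hS)
  set Y : V → Finset V := dual (fun a => cl D (U a)) with hY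
  refine ⟨meet (Rr D) B, Y, ⟨?_, ?_, ?_⟩, ?_⟩
  · exact fun a => mem_meet.2 fun c hc => h.b c a hc
  · exact fun a => mem_dual.2 (Or.inl rfl)
  · intro a y hy hay
    obtain ⟨z, hz, hza⟩ := mem_cl'.1 hay
    obtain ⟨x, hx, hxy⟩ := mem_cl'.1 hy
    rcases mem_dual.1 hz with h1 | h1
    · subst h1
      rcases hza with h2 | h2
      · exact h2.symm
      · rcases hxy with h3 | h3
        · subst h3
          have h4 := mem_meet.1 hx a (Or.inl rfl)
          exact h.o a z h4 (h.c z a (Or.inr h2))
        · have h4 := mem_meet.1 hx z (Or.inr h2)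
          have h5 := h.o z x h4 (h.c x z (Or.inr h3))
          subst h5
          exact absurd h3 (D.loopless _)
    · exact absurd (mem_cl'.2 ⟨x, hBU z (mem_meet.1 hx z hza), hxy⟩) h1
  · -- the cost
    have c1 : ∑ x, w x * W w (Y x) =
        ∑ z, w z * (W w Finset.univ - (W w (cl D (U z)) - w z)) := by
      rw [dcount w Y (fun z => Finset.univ \ ((cl D (U z)).erase z))]
      · refine Finset.sum_congr rfl fun z _ => ?_
        rw [W_compl_erase w _ z (subset_cl _ (hBU z (h.b z z (Or.inl rfl))))]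
      · intro x z
        rw [hY, mem_dual, Finset.mem_sdiff, Finset.mem_erase]
        constructor
        · rintro (h1 | h1)
          · exact ⟨Finset.mem_univ _, fun h2 => h2.1 h1.symm⟩
          · exact ⟨Finset.mem_univ _, fun h2 => h1 h2.2⟩
        · rintro ⟨-, h1⟩
          by_cases h2 : z = x
          · exact Or.inl h2
          · exact Or.inr fun h3 => h1 ⟨fun h4 => h2 h4.symm, h3⟩
    have c2 : ∑ x, w x * W w (cl D (Y x)) ≤
        ∑ z, w z * (W w Finset.univ - (W w (cl D (meet (Rr D) U z)) - w z)) := by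
      rw [dcount w (fun x => cl D (Y x)) (fun z => Finset.univ.filter fun x => z ∈ cl D (Y x))
        (by intro x z; simp)]
      refine Finset.sum_le_sum fun z _ => mul_le_mul_of_nonneg_left ?_ (hw0 z)
      rw [← W_compl_erase w _ z (subset_cl _ (hzM z))]
      refine W_mono hw0 ?_
      intro x hx
      have hx' := (Finset.mem_filter.1 hx).2
      refine Finset.mem_sdiff.2 ⟨Finset.mem_univ _, fun hx2 => ?_⟩
      obtain ⟨hxz, hx3⟩ := Finset.mem_erase.1 hx2
      obtain ⟨y, hy, hyx⟩ := mem_cl'.1 hx3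
      obtain ⟨a, ha, haz⟩ := mem_cl'.1 hx'
      have hyU := mem_meet.1 hy a haz
      rcases mem_dual.1 ha with h1 | h1
      · subst h1
        rcases haz with h2 | h2
        · exact hxz h2.symm
        · rcases hyx with h3 | h3
          · subst h3
            exact hrev z a h2 (mem_meet.1 hy z (Or.inl rfl))
          · exact hrev a y h3 hyU
      · exact h1 (mem_cl'.2 ⟨y, hyU, hyx⟩)
    have c3 : ∑ y, w y * W w (C y) = ∑ z, w z * (W w Finset.univ - (W w (U z) - w z)) := by
      rw [dcount w C (fun z => Finset.univ \ ((U z).erase z))]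
      · refine Finset.sum_congr rfl fun z _ => ?_
        rw [W_compl_erase w _ z (hBU z (h.b z z (Or.inl rfl)))]
      · intro x z
        rw [Finset.mem_sdiff, Finset.mem_erase, hU, mem_dual]
        constructor
        · intro h1
          refine ⟨Finset.mem_univ _, ?_⟩
          rintro ⟨h2, h3 | h3⟩
          · exact h2 h3
          · exact h3 h1
        · rintro ⟨-, h1⟩
          by_cases h2 : x = z
          · subst h2
            exact h.c x x (Or.inl rfl)
          · by_contra h3
            exact h1 ⟨h2, Or.inr h3⟩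
    have c4 : ∑ z, w z * (W w Finset.univ - (W w (meet (Rr D) U z) - w z)) ≤
        ∑ y, w y * W w (cl D (C y)) := by
      rw [dcount w (fun x => cl D (C x)) (fun z => Finset.univ.filter fun x => z ∈ cl D (C x))
        (by intro x z; simp)]
      refine Finset.sum_le_sum fun z _ => mul_le_mul_of_nonneg_left ?_ (hw0 z)
      rw [← W_compl_erase w _ z (hzM z)]
      refine W_mono hw0 ?_
      intro y hy
      refine Finset.mem_filter.2 ⟨Finset.mem_univ _, ?_⟩
      by_cases hyz : y = z
      · subst hyz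
        exact mem_cl'.2 ⟨y, h.c y y (Or.inl rfl), Or.inl rfl⟩
      · have h1 : y ∉ meet (Rr D) U z := fun h2 =>
          (Finset.mem_sdiff.1 hy).2 (Finset.mem_erase.2 ⟨hyz, h2⟩)
        rw [mem_meet] at h1
        push Not at h1
        obtain ⟨a, haz, ha⟩ := h1
        rw [hU, mem_dual] at ha
        push Not at ha
        exact mem_cl'.2 ⟨a, ha.2, haz⟩
    have e1 : ∑ a, w a * hh D w (Y a) = ∑ x, w x * W w (cl D (Y x)) - ∑ x, w x * W w (Y x) := by
      rw [← Finset.sum_sub_distrib]
      exact Finset.sum_congr rfl fun a _ => by unfold hh; ring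
    have e2 : ∑ a, w a * hh D w (C a) = ∑ x, w x * W w (cl D (C x)) - ∑ x, w x * W w (C x) := by
      rw [← Finset.sum_sub_distrib]
      exact Finset.sum_congr rfl fun a _ => by unfold hh; ring
    have e3 : ∑ z, w z * (W w Finset.univ - (W w (cl D (meet (Rr D) U z)) - w z)) -
        ∑ z, w z * (W w Finset.univ - (W w (cl D (U z)) - w z)) -
        (∑ z, w z * (W w Finset.univ - (W w (meet (Rr D) U z) - w z)) -
          ∑ z, w z * (W w Finset.univ - (W w (U z) - w z))) =
        ∑ a, w a * (hh D w (U a) - hh D w (B a)) -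
          ∑ z, w z * (hh D w (meet (Rr D) U z) - hh D w (meet (Rr D) B z)) +
          (∑ a, w a * hh D w (B a) - ∑ a, w a * hh D w (meet (Rr D) B a)) := by
      simp only [← Finset.sum_sub_distrib, ← Finset.sum_add_distrib]
      exact Finset.sum_congr rfl fun a _ => by unfold hh; ring
    unfold cost
    rw [e1, e2]
    linarith

end Vale.Agent.P038.H787
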