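import Mathlib

/-!
# The gap inequality for a pair of coupled min cuts (P038)

`h` is a submodular set function on `V`, `w` a nonnegative weight, `R` a relation, and for every
`a` there are sets `B a ⊆ U a`. Put `M z = ⋂ U a` and `m z = ⋂ B a`, over all `a` with `R a z`.
If `h (B a) ≤ h Y` for `B a ⊆ Y ⊆ U a` (row condition), and for every `b` and every set `S` of
vertices `a` with `b ∈ U a \ B a` the weight of `S` is at most the weight of the set of all `z` with
`b ∈ M z` which are related to some `a ∈ S` (column condition), then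
`∑ w a (h (U a) - h (B a)) ≤ ∑ w z (h (M z) - h (m z))`.
-/

namespace Vale.Agent.P038.H787

open Finset

/-- Layer cake: a Hall condition gives the inequality between weighted sums. -/
theorem layer {V : Type*} [DecidableEq V] {w : V → ℝ} (hw : ∀ v, 0 ≤ w v)
    (R : V → V → Prop) [DecidableRel R] (n : ℕ) :
    ∀ (S0 Z0 : Finset V) (f g : V → ℝ), S0.card = n → (∀ a ∈ S0, 0 ≤ f a) →
      (∀ z ∈ Z0, 0 ≤ g z) → (∀ a ∈ S0, ∀ z ∈ Z0, R a z → f a ≤ g z) →
      (∀ S, S ⊆ S0 → ∑ a ∈ S, w a ≤ ∑ z ∈ Z0.filter (fun z => ∃ a ∈ S, R a z), w z) →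
      ∑ a ∈ S0, w a * f a ≤ ∑ z ∈ Z0, w z * g z := by
  induction n with
  | zero =>
    intro S0 Z0 f g hc _ hg _ _
    rw [Finset.card_eq_zero.1 hc, Finset.sum_empty]
    exact Finset.sum_nonneg fun z hz => mul_nonneg (hw z) (hg z hz)
  | succ n ih =>
    intro S0 Z0 f g hc hf hg hfg hH
    have hne : S0.Nonempty := by
      rw [← Finset.card_pos, hc]
      exact Nat.succ_pos n
    obtain ⟨a0, ha0, hmin⟩ := Finset.exists_min_image S0 f hne
    set c := f a0 with hc0
    have hc1 : 0 ≤ c := hf a0 ha0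
    set Z1 := Z0.filter (fun z => ∃ a ∈ S0, R a z) with hZ1
    have h1 := ih (S0.erase a0) Z1 (fun a => f a - c) (fun z => g z - c)
      (by rw [Finset.card_erase_of_mem ha0, hc]; rfl)
      (fun a ha => sub_nonneg.2 (hmin a (Finset.mem_of_mem_erase ha)))
      (by
        intro z hz
        obtain ⟨hz0, a, ha, haz⟩ := Finset.mem_filter.1 hz
        have h2 := hmin a ha
        have h3 := hfg a ha z hz0 haz
        exact sub_nonneg.2 (h2.trans h3))
      (by
        intro a ha z hz haz
        have h3 := hfg a (Finset.mem_of_mem_erase ha) z (Finset.mem_filter.1 hz).1 haz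
        exact sub_le_sub_right h3 c)
      (by
        intro S hS
        have hS' : S ⊆ S0 := hS.trans (Finset.erase_subset _ _)
        refine (hH S hS').trans (le_of_eq ?_)
        refine Finset.sum_congr ?_ fun _ _ => rfl
        ext z
        simp only [hZ1, Finset.mem_filter]
        constructor
        · rintro ⟨hz, a, ha, haz⟩
          exact ⟨⟨hz, a, hS' ha, haz⟩, a, ha, haz⟩
        · rintro ⟨⟨hz, _⟩, a, ha, haz⟩
          exact ⟨hz, a, ha, haz⟩)
    have h2 : ∑ a ∈ S0, w a * f a = c * ∑ a ∈ S0, w a + ∑ a ∈ S0.erase a0, w a * (f a - c) := by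
      have h3 : ∑ a ∈ S0, w a * (f a - c) = ∑ a ∈ S0.erase a0, w a * (f a - c) := by
        rw [← Finset.add_sum_erase S0 _ ha0]
        simp [← hc0]
      rw [← h3, Finset.mul_sum, ← Finset.sum_add_distrib]
      exact Finset.sum_congr rfl fun a _ => by ring
    have h3 : ∑ z ∈ Z1, w z * (g z - c) + c * ∑ z ∈ Z1, w z = ∑ z ∈ Z1, w z * g z := by
      rw [Finset.mul_sum, ← Finset.sum_add_distrib]
      exact Finset.sum_congr rfl fun a _ => by ring
    have h4 : ∑ z ∈ Z1, w z * g z ≤ ∑ z ∈ Z0, w z * g z :=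
      Finset.sum_le_sum_of_subset_of_nonneg (Finset.filter_subset _ _)
        fun z hz _ => mul_nonneg (hw z) (hg z hz)
    have h5 := mul_le_mul_of_nonneg_left (hH S0 (Finset.Subset.refl _)) hc1
    rw [← hZ1] at h5
    rw [h2]
    linarith

section kk

variable {V : Type*} [Fintype V] [DecidableEq V]

/-- The minimum of `h` over the sets between `P ∪ (T ∩ Q)` and `Q`. -/
noncomputable def kk (h : Finset V → ℝ) (P Q T : Finset V) : ℝ :=
  sInf (h '' {Y | P ∪ (T ∩ Q) ⊆ Y ∧ Y ⊆ Q})

theorem kk_le (h : Finset V → ℝ) {P Q T Y : Finset V} (h1 : P ∪ (T ∩ Q) ⊆ Y) (h2 : Y ⊆ Q) :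
    kk h P Q T ≤ h Y :=
  csInf_le (Set.toFinite _).bddBelow ⟨Y, ⟨h1, h2⟩, rfl⟩

theorem kk_mem (h : Finset V → ℝ) {P Q : Finset V} (T : Finset V) (hPQ : P ⊆ Q) :
    ∃ Y, P ∪ (T ∩ Q) ⊆ Y ∧ Y ⊆ Q ∧ h Y = kk h P Q T := by
  have hne : (h '' {Y | P ∪ (T ∩ Q) ⊆ Y ∧ Y ⊆ Q}).Nonempty :=
    ⟨h Q, Q, ⟨Finset.union_subset hPQ Finset.inter_subset_right, Finset.Subset.refl _⟩, rfl⟩
  obtain ⟨Y, ⟨h1, h2⟩, h3⟩ := hne.csInf_mem (Set.toFinite _)
  exact ⟨Y, h1, h2, h3⟩

theorem kk_mono (h : Finset V → ℝ) {P Q : Finset V} (T : Finset V) (b : V) (hPQ : P ⊆ Q) :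
    kk h P Q T ≤ kk h P Q (insert b T) := by
  obtain ⟨Y, h1, h2, h3⟩ := kk_mem h (insert b T) hPQ
  rw [← h3]
  refine kk_le h ?_ h2
  refine (Finset.union_subset_union (Finset.Subset.refl _) ?_).trans h1
  exact Finset.inter_subset_inter (Finset.subset_insert _ _) (Finset.Subset.refl _)

theorem kk_eq_of_notMem (h : Finset V → ℝ) {P Q : Finset V} (T : Finset V) (b : V)
    (hb : b ∈ P ∨ b ∉ Q) : kk h P Q (insert b T) = kk h P Q T := by
  have e : P ∪ (insert b T ∩ Q) = P ∪ (T ∩ Q) := by
    ext x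
    simp only [Finset.mem_union, Finset.mem_inter, Finset.mem_insert]
    constructor
    · rintro (h1 | ⟨rfl | h1, h2⟩)
      · exact Or.inl h1
      · rcases hb with hb | hb
        · exact Or.inl hb
        · exact absurd h2 hb
      · exact Or.inr ⟨h1, h2⟩
    · rintro (h1 | ⟨h1, h2⟩)
      · exact Or.inl h1
      · exact Or.inr ⟨Or.inr h1, h2⟩
  unfold kk
  rw [e]

theorem kk_univ (h : Finset V → ℝ) {P Q : Finset V} (hPQ : P ⊆ Q) :
    kk h P Q Finset.univ = h Q := by
  obtain ⟨Y, h1, h2, h3⟩ := kk_mem h Finset.univ hPQ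
  have h4 : Y = Q := by
    refine Finset.Subset.antisymm h2 ?_
    intro x hx
    exact h1 (Finset.mem_union_right _ (Finset.mem_inter.2 ⟨Finset.mem_univ _, hx⟩))
  rw [← h3, h4]

/-- The comparison of the increments. -/
theorem kk_comp {h : Finset V → ℝ} (hsub : ∀ Y Z, h (Y ∪ Z) + h (Y ∩ Z) ≤ h Y + h Z)
    {P Q p q T : Finset V} {b : V} (hPQ : P ⊆ Q) (hpq : p ⊆ q) (hpP : p ⊆ P) (hqQ : q ⊆ Q)
    (hb : b ∈ q) :
    kk h P Q (insert b T) - kk h P Q T ≤ kk h p q (insert b T) - kk h p q T := by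
  obtain ⟨Y, h1, h2, h3⟩ := kk_mem h (insert b T) hpq
  obtain ⟨Y', h1', h2', h3'⟩ := kk_mem h T hPQ
  have hbY : b ∈ Y := h1 (Finset.mem_union_right _
    (Finset.mem_inter.2 ⟨Finset.mem_insert_self _ _, hb⟩))
  have e1 : kk h P Q (insert b T) ≤ h (Y ∪ Y') := by
    refine kk_le h ?_ (Finset.union_subset (h2.trans hqQ) h2')
    intro x hx
    rcases Finset.mem_union.1 hx with hx | hx
    · exact Finset.mem_union_right _ (h1' (Finset.mem_union_left _ hx))
    · obtain ⟨hx1, hx2⟩ := Finset.mem_inter.1 hx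
      rcases Finset.mem_insert.1 hx1 with rfl | hx1
      · exact Finset.mem_union_left _ hbY
      · exact Finset.mem_union_right _ (h1' (Finset.mem_union_right _
          (Finset.mem_inter.2 ⟨hx1, hx2⟩)))
  have e2 : kk h p q T ≤ h (Y ∩ Y') := by
    refine kk_le h ?_ (Finset.inter_subset_left.trans h2)
    intro x hx
    rcases Finset.mem_union.1 hx with hx | hx
    · exact Finset.mem_inter.2 ⟨h1 (Finset.mem_union_left _ hx),
        h1' (Finset.mem_union_left _ (hpP hx))⟩
    · obtain ⟨hx1, hx2⟩ := Finset.mem_inter.1 hx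
      exact Finset.mem_inter.2 ⟨h1 (Finset.mem_union_right _ (Finset.mem_inter.2
        ⟨Finset.mem_insert_of_mem hx1, hx2⟩)), h1' (Finset.mem_union_right _
        (Finset.mem_inter.2 ⟨hx1, hqQ hx2⟩))⟩
  have e3 := hsub Y Y'
  linarith

end kk

section gap

variable {V : Type*} [Fintype V] [DecidableEq V]

/-- The meet of the sets `F a`, `R a z`. -/
def meet (R : V → V → Prop) [DecidableRel R] (F : V → Finset V) (z : V) : Finset V :=
  Finset.univ.filter fun b => ∀ a, R a z → b ∈ F a

theorem mem_meet {R : V → V → Prop} [DecidableRel R] {F : V → Finset V} {z b : V} :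
    b ∈ meet R F z ↔ ∀ a, R a z → b ∈ F a := by
  simp [meet]

/-- Successive intersections do not increase `h`. -/
theorem inter_all {h : Finset V → ℝ} (hsub : ∀ Y Z, h (Y ∪ Z) + h (Y ∩ Z) ≤ h Y + h Z)
    (B U : V → Finset V) (hBU : ∀ a, B a ⊆ U a)
    (hrow : ∀ a Y, B a ⊆ Y → Y ⊆ U a → h (B a) ≤ h Y) (s : Finset V) :
    ∀ Y, (∀ a ∈ s, Y ⊆ U a) → h (Y.filter fun b => ∀ a ∈ s, b ∈ B a) ≤ h Y := by
  induction s using Finset.induction_on with
  | empty =>
    intro Y _
    simp
  | insert a s _ ih =>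
    intro Y hY
    have h1 : h (Y ∩ B a) ≤ h Y := by
      have h2 := hsub Y (B a)
      have h3 := hrow a (Y ∪ B a) Finset.subset_union_right
        (Finset.union_subset (hY a (Finset.mem_insert_self _ _)) (hBU a))
      linarith
    have h4 := ih (Y ∩ B a) (fun c hc => Finset.inter_subset_left.trans
      (hY c (Finset.mem_insert_of_mem hc)))
    refine le_trans (le_of_eq ?_) (h4.trans h1)
    congr 1
    ext x
    simp only [Finset.mem_filter, Finset.mem_inter, Finset.mem_insert, forall_eq_or_imp]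
    tauto

/-- The gap inequality. -/
theorem gap {h : Finset V → ℝ} (hsub : ∀ Y Z, h (Y ∪ Z) + h (Y ∩ Z) ≤ h Y + h Z)
    {w : V → ℝ} (hw : ∀ v, 0 ≤ w v) (R : V → V → Prop) [DecidableRel R]
    (B U : V → Finset V) (hBU : ∀ a, B a ⊆ U a)
    (hrow : ∀ a Y, B a ⊆ Y → Y ⊆ U a → h (B a) ≤ h Y)
    (hcol : ∀ b (S : Finset V), (∀ a ∈ S, b ∈ U a ∧ b ∉ B a) →
      ∑ a ∈ S, w a ≤ ∑ z ∈ Finset.univ.filter (fun z => b ∈ meet R U z ∧ ∃ a ∈ S, R a z), w z) :
    ∑ a, w a * (h (U a) - h (B a)) ≤ ∑ z, w z * (h (meet R U z) - h (meet R B z)) := by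
  have hmM : ∀ z, meet R B z ⊆ meet R U z := by
    intro z b hb
    rw [mem_meet] at hb ⊢
    exact fun a ha => hBU a (hb a ha)
  have hm0 : ∀ z Y, Y ⊆ meet R U z → meet R B z ⊆ Y → h (meet R B z) ≤ h Y := by
    intro z Y hY hY'
    have h1 := inter_all hsub B U hBU hrow (Finset.univ.filter fun a => R a z) Y (by
      intro a ha b hb
      exact mem_meet.1 (hY hb) a (Finset.mem_filter.1 ha).2)
    refine le_trans (le_of_eq ?_) h1
    congr 1
    ext x
    simp only [Finset.mem_filter, Finset.mem_univ, true_and]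
    constructor
    · intro hx
      exact ⟨hY' hx, fun a ha => mem_meet.1 hx a ha⟩
    · rintro ⟨_, hx⟩
      exact mem_meet.2 hx
  have key : ∀ T : Finset V, ∑ a, w a * (kk h (B a) (U a) T - h (B a)) ≤
      ∑ z, w z * (kk h (meet R B z) (meet R U z) T - h (meet R B z)) := by
    intro T
    induction T using Finset.induction_on with
    | empty =>
      refine Finset.sum_le_sum fun a _ => mul_le_mul_of_nonneg_left ?_ (hw a)
      have h1 : kk h (B a) (U a) ∅ ≤ h (B a) := kk_le h (by simp) (hBU a)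
      obtain ⟨Y, h2, h3, h4⟩ := kk_mem h ∅ (hmM a)
      have h5 := hm0 a Y h3 (by
        refine Finset.Subset.trans ?_ h2
        exact Finset.subset_union_left)
      rw [← h4]
      linarith
    | insert b T _ ih =>
      set S0 := Finset.univ.filter fun a => b ∈ U a ∧ b ∉ B a with hS0
      set Z0 := Finset.univ.filter fun z => b ∈ meet R U z with hZ0
      have h1 := layer hw R S0.card S0 Z0
        (fun a => kk h (B a) (U a) (insert b T) - kk h (B a) (U a) T)
        (fun z => kk h (meet R B z) (meet R U z) (insert b T) -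
          kk h (meet R B z) (meet R U z) T) rfl
        (fun a _ => sub_nonneg.2 (kk_mono h T b (hBU a)))
        (fun z _ => sub_nonneg.2 (kk_mono h T b (hmM z)))
        (by
          intro a _ z hz haz
          refine kk_comp hsub (hBU a) (hmM z) ?_ ?_ (Finset.mem_filter.1 hz).2
          · intro x hx
            exact mem_meet.1 hx a haz
          · intro x hx
            exact mem_meet.1 hx a haz)
        (by
          intro S hS
          refine (hcol b S fun a ha => (Finset.mem_filter.1 (hS ha)).2).trans (le_of_eq ?_)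
          refine Finset.sum_congr ?_ fun _ _ => rfl
          ext z
          simp only [hZ0, Finset.mem_filter, Finset.mem_univ, true_and])
      have h2 : ∑ a, w a * (kk h (B a) (U a) (insert b T) - kk h (B a) (U a) T) =
          ∑ a ∈ S0, w a * (kk h (B a) (U a) (insert b T) - kk h (B a) (U a) T) := by
        refine (Finset.sum_subset (Finset.subset_univ _) fun a _ ha => ?_).symm
        have h3 : b ∈ B a ∨ b ∉ U a := by
          by_contra hcon
          push Not at hcon
          exact ha (Finset.mem_filter.2 ⟨Finset.mem_univ _, hcon.2, hcon.1⟩)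
        rw [kk_eq_of_notMem h T b h3, sub_self, mul_zero]
      have h3 : ∑ z ∈ Z0, w z * (kk h (meet R B z) (meet R U z) (insert b T) -
          kk h (meet R B z) (meet R U z) T) ≤
          ∑ z, w z * (kk h (meet R B z) (meet R U z) (insert b T) -
          kk h (meet R B z) (meet R U z) T) :=
        Finset.sum_le_sum_of_subset_of_nonneg (Finset.subset_univ _)
          fun z _ _ => mul_nonneg (hw z) (sub_nonneg.2 (kk_mono h T b (hmM z)))
      have e1 : ∑ a, w a * (kk h (B a) (U a) (insert b T) - h (B a)) =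
          ∑ a, w a * (kk h (B a) (U a) (insert b T) - kk h (B a) (U a) T) +
          ∑ a, w a * (kk h (B a) (U a) T - h (B a)) := by
        rw [← Finset.sum_add_distrib]
        exact Finset.sum_congr rfl fun a _ => by ring
      have e2 : ∑ z, w z * (kk h (meet R B z) (meet R U z) (insert b T) - h (meet R B z)) =
          ∑ z, w z * (kk h (meet R B z) (meet R U z) (insert b T) -
            kk h (meet R B z) (meet R U z) T) +
          ∑ z, w z * (kk h (meet R B z) (meet R U z) T - h (meet R B z)) := by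
        rw [← Finset.sum_add_distrib]
        exact Finset.sum_congr rfl fun a _ => by ring
      rw [e1, e2]
      linarith
  have h1 := key Finset.univ
  have e1 : ∀ a, kk h (B a) (U a) Finset.univ = h (U a) := fun a => kk_univ h (hBU a)
  have e2 : ∀ z, kk h (meet R B z) (meet R U z) Finset.univ = h (meet R U z) :=
    fun z => kk_univ h (hmM z)
  simp only [e1, e2] at h1
  exact h1

end gap

end Vale.Agent.P038.H787
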