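import Vale.Agent.P038.H787.Cut
import Vale.Agent.P038.H71.Plan

/-!
# Seymour's second neighbourhood conjecture

The normal form of a counterexample (constant `lam = 1`, fewest arcs) does not exist: the strict
plan inequality of H71 makes the outer cut of an optimal inner pair strictly cheaper, while
`compare` says that no outer cut is cheaper than all inner pairs.
-/

namespace Vale.Agent.P038.H787

open Finset Vale.Agent.P038.H139 Vale.Agent.P038.H71

universe u

variable {V : Type u} [Fintype V]

/-- Strict (G): in the normal form with the fewest arcs, every set which is not closed has a larger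
boundary than its closed out-neighbourhood. -/
theorem g_strict [DecidableEq V] {D : OGraph V} {w : V → ℝ} (h : NFmin 1 D w) (X : Finset V)
    (hX : cl D X ≠ X) : hh D w (cl D X) < hh D w X := by
  have hw0 : ∀ v, 0 ≤ w v := h.toNF.nonneg
  set L := Lx D X with hL
  have hL' : L = outS D X \ X := hL
  have hclX : cl D X = X ∪ L := by
    ext z
    rw [mem_cl, Finset.mem_union, hL', Finset.mem_sdiff, mem_outS]
    tauto
  have hne : L ≠ ∅ := by
    intro he
    exact hX (by rw [hclX, he, Finset.union_empty])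
  have hdis : Disjoint X L := by
    rw [hL']
    exact Finset.disjoint_sdiff
  have hplan := plan_lt h X ∅ (Finset.ssubset_iff_subset_ne.2 ⟨Finset.empty_subset _, Ne.symm hne⟩)
  have hcle : cl D (∅ : Finset V) = ∅ := by
    ext z
    rw [mem_cl]
    simp
  have h0 : W w (∅ : Finset V) = 0 := Finset.sum_empty
  unfold dd at hplan
  rw [hcle, Finset.empty_sdiff, h0, ← hL] at hplan
  have h1 : W w (cl D X) = W w X + W w L := by
    rw [hclX]
    exact W_union hdis
  have h2 : W w (cl D (cl D X)) ≤ W w X + W w (cl D L \ X) := by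
    rw [← W_union (Finset.disjoint_sdiff)]
    refine W_mono hw0 ?_
    rw [hclX, cl_union', hclX]
    intro z hz
    rw [Finset.mem_union]
    by_cases hzX : z ∈ X
    · exact Or.inl hzX
    · refine Or.inr (Finset.mem_sdiff.2 ⟨?_, hzX⟩)
      rcases Finset.mem_union.1 hz with hz | hz
      · rcases Finset.mem_union.1 hz with hz | hz
        · exact absurd hz hzX
        · exact subset_cl _ hz
      · exact hz
  unfold hh
  linarith

theorem no_nfmin [Nonempty V] {D : OGraph V} {w : V → ℝ} (h : NFmin 1 D w) : False := by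
  classical
  have hw : ∀ v, 0 < w v := h.toNF.pos
  have hw0 : ∀ v, 0 ≤ w v := fun v => (hw v).le
  have hg : ∀ S : Finset V, hh D w (cl D S) ≤ hh D w S := by
    intro S
    by_cases hS : cl D S = S
    · rw [hS]
    · exact (g_strict h S hS).le
  -- an inner optimum
  have hin0 : InF D (fun a => ({a} : Finset V)) (fun a => ({a} : Finset V)) := by
    refine ⟨fun a => Finset.mem_singleton_self a, fun a => Finset.mem_singleton_self a, ?_⟩
    intro a y hy hay
    obtain ⟨x, hx, hxy⟩ := mem_cl'.1 hy
    obtain ⟨z, hz, hza⟩ := mem_cl'.1 hay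
    rw [Finset.mem_singleton] at hx hz
    subst hx
    subst hz
    rcases hxy with h1 | h1
    · exact h1
    · rcases hza with h2 | h2
      · exact h2.symm
      · exact absurd h2 (D.asymm _ _ h1)
  obtain ⟨⟨X, Y⟩, hXY, hXYmin⟩ := Set.exists_min_image
    {p : (V → Finset V) × (V → Finset V) | InF D p.1 p.2} (fun p => cost D w p.1 p.2)
    (Set.toFinite _) ⟨(_, _), hin0⟩
  have hXY' : InF D X Y := hXY
  have hout : OutF D (fun a => cl D (X a)) (fun a => cl D (Y a)) := hXY'.toOutF
  -- an outer optimum
  obtain ⟨⟨B, C⟩, hBC, hBCmin⟩ := Set.exists_min_image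
    {p : (V → Finset V) × (V → Finset V) | OutF D p.1 p.2} (fun p => cost D w p.1 p.2)
    (Set.toFinite _) ⟨(_, _), hout⟩
  have hBC' : OutF D B C := hBC
  obtain ⟨X', Y', hX'Y', hle⟩ := compare hw hBC' (fun B' C' h' => hBCmin (B', C') h')
  have h1 : cost D w X Y ≤ cost D w X' Y' := hXYmin (X', Y') hX'Y'
  have h2 : cost D w B C ≤ cost D w (fun a => cl D (X a)) (fun a => cl D (Y a)) :=
    hBCmin (_, _) hout
  -- not all the sets `X a` are closed
  obtain ⟨a0, ha0⟩ : ∃ a, cl D (X a) ≠ X a := by
    by_contra hcon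
    push Not at hcon
    obtain ⟨K, ⟨hK1, hK2⟩, hKmin⟩ := Set.exists_min_image
      {K : Finset V | cl D K = K ∧ K.Nonempty} Finset.card (Set.toFinite _)
      ⟨Finset.univ, Finset.Subset.antisymm (Finset.subset_univ _) (subset_cl _),
        Finset.univ_nonempty⟩
    obtain ⟨y, hy⟩ := hK2
    obtain ⟨a, hya⟩ : ∃ a, D.arc y a := by
      have h3 := h.toNF.one y
      by_contra hno
      push Not at hno
      have h4 : N1 D y = ∅ := by
        ext z
        rw [mem_N1]
        simp [hno z]
      unfold Fw at h3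
      rw [h4] at h3
      have h5 := W_nonneg hw0 (N2 D y)
      have h6 : W w (∅ : Finset V) = 0 := Finset.sum_empty
      rw [h6] at h3
      linarith
    have haK : a ∈ K := by
      rw [← hK1]
      exact mem_cl'.2 ⟨y, hy, Or.inr hya⟩
    have h3 := hKmin (X a ∩ K) ⟨by
      refine Finset.Subset.antisymm ?_ (subset_cl _)
      refine Finset.subset_inter ?_ ?_
      · refine (cl_mono' Finset.inter_subset_left).trans ?_
        rw [hcon a]
      · refine (cl_mono' Finset.inter_subset_right).trans ?_
        rw [hK1], ⟨a, Finset.mem_inter.2 ⟨hXY'.x a, haK⟩⟩⟩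
    have h4 : X a ∩ K = K := Finset.eq_of_subset_of_card_le Finset.inter_subset_right h3
    have h5 : y ∈ X a := by
      rw [← h4] at hy
      exact (Finset.mem_inter.1 hy).1
    have h6 := hXY'.o a y (subset_cl _ h5) (mem_cl'.2 ⟨y, hXY'.y y, Or.inr hya⟩)
    subst h6
    exact D.loopless _ hya
  have h3 : cost D w (fun a => cl D (X a)) (fun a => cl D (Y a)) < cost D w X Y := by
    unfold cost
    refine add_lt_add_of_lt_of_le ?_ ?_
    · refine Finset.sum_lt_sum (fun a _ => mul_le_mul_of_nonneg_left (hg (X a)) (hw0 a))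
        ⟨a0, Finset.mem_univ _, ?_⟩
      exact mul_lt_mul_of_pos_left (g_strict h (X a0) ha0) (hw a0)
    · exact Finset.sum_le_sum fun a _ => mul_le_mul_of_nonneg_left (hg (Y a)) (hw0 a)
  linarith

theorem no_nf [Nonempty V] (D : OGraph V) (w : V → ℝ) : ¬ NF 1 D w := by
  intro h
  obtain ⟨D', w', h'⟩ := exists_nfmin h
  exact no_nfmin h'

/-- Seymour's second neighbourhood conjecture, with vertex weights. -/
theorem seymour {V : Type u} [Fintype V] [Nonempty V] (D : OGraph V) (w : V → ℝ)
    (hw : ∀ v, 0 ≤ w v) : ∃ v, ∑ x ∈ N1 D v, w x ≤ ∑ x ∈ N2 D v, w x := by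
  obtain ⟨v, hv⟩ := snc_of_noNF (lam := 1) zero_le_one (fun V _ _ D w => no_nf D w) D w hw
  exact ⟨v, by rwa [one_mul] at hv⟩

/-- Seymour's second neighbourhood conjecture. -/
theorem seymour_card {V : Type u} [Fintype V] [Nonempty V] (D : OGraph V) :
    ∃ v, (N1 D v).card ≤ (N2 D v).card := by
  obtain ⟨v, hv⟩ := seymour D (fun _ => (1 : ℝ)) (fun _ => zero_le_one)
  refine ⟨v, ?_⟩
  have h1 : ((N1 D v).card : ℝ) ≤ ((N2 D v).card : ℝ) := by simpa using hv
  exact_mod_cast h1

end Vale.Agent.P038.H787
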